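import Vale.Agent.P022D.Rep.Comm
import Vale.Agent.P022E.Rep.Basic

namespace Vale.Agent.P022E.Rep
export Vale.Agent.P022D.Rep (
  thM_add hecke_comm' thM_fix thM ee_th_ee thM_zero ee_w_c0 ee0_g_ee thM_smul sum_psi u_c0
  thM_ee ee0_w_v0 hecke_comm thA ee_a_c0 ee_w_ee_w t_c0 ee_t_ee thM_el wuw_nB thM_mul c0
  ee_c0)
end Vale.Agent.P022E.Rep

namespace Vale.Agent.P022E.Rep.BN
export Vale.Agent.P022D.Rep.BN (
  th_one)
end Vale.Agent.P022E.Rep.BN
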