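import Vale.Agent.P022D.Rep.Fx
import Vale.Agent.P022E.Rep.Comm

namespace Vale.Agent.P022E.Rep
export Vale.Agent.P022D.Rep (
  dm fin_quot_lt mod_ind ex_simple dm_add dm_sub finrank_dm Fx dm_c mem_Fx)
end Vale.Agent.P022E.Rep

namespace Vale.Agent.P022E.Rep.IsAdd
export Vale.Agent.P022D.Rep.IsAdd (
  congr sub)
end Vale.Agent.P022E.Rep.IsAdd
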