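import Vale.Agent.P022D.Rep.Gen
import Vale.Agent.P022E.Rep.Basic

namespace Vale.Agent.P022E.Rep
export Vale.Agent.P022D.Rep (
  proj_free idem_comm fixvec proj_dvd proj_ineq idem_ex)
end Vale.Agent.P022E.Rep
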