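import Vale.Agent.P022D.Rep.Main
import Vale.Agent.P022E.Rep.Cnt

namespace Vale.Agent.P022E.Rep
export Vale.Agent.P022D.Rep (
  ex_P d0_le c0_ne sA_fix ex_f sub_one_pow fix_mul fix_left d0_eq chi_sA prod_fix fix_right
  inC_span)
end Vale.Agent.P022E.Rep

namespace Vale.Agent.P022E.Rep.BN
export Vale.Agent.P022D.Rep.BN (
  tH)
end Vale.Agent.P022E.Rep.BN
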