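import Vale.Agent.P022D.Rep.Rs
import Vale.Agent.P022E.Rep.R
import Vale.Agent.P022E.Rep.Inst

namespace Vale.Agent.P022E.Rep
export Vale.Agent.P022D.Rep (
  Ix XJ_v XJ_in TX combH stp_modR mul_ofR XJ SesX combX XG XJ_out PG XG_v XS StpR MulR mulP
  bnP)
end Vale.Agent.P022E.Rep

namespace Vale.Agent.P022E.Rep.Act
export Vale.Agent.P022D.Rep.Act (
  cls avg sesH hig_of avg_mem avg_apply mem_XS le_XS norm_of_fix)
end Vale.Agent.P022E.Rep.Act

namespace Vale.Agent.P022E.Rep.MulR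
export Vale.Agent.P022D.Rep.MulR (
  mono)
end Vale.Agent.P022E.Rep.MulR

namespace Vale.Agent.P022E.Rep.TX
export Vale.Agent.P022D.Rep.TX (
  v_update v)
end Vale.Agent.P022E.Rep.TX

namespace Vale.Agent.P022E.Rep.Quo
export Vale.Agent.P022D.Rep.Quo (
  mulR)
end Vale.Agent.P022E.Rep.Quo
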